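import Crest.Agent.X212.Eq82.Core
import Crest.Agent.X212.Eq82.Top
import Crest.Agent.X212.Sm10.Nvf
import Crest.Agent.X212.Met55.Trk
import Crest.Agent.X212.Nv3.Red
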